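import Vale.Agent.P155.Y877.Pot
import Vale.Agent.P155.NT924.YDef
import Vale.Agent.P153.R2.L1.Rmt

/-!
# P155, block R1: the Green energies of the bumps
-/

namespace Vale.Agent.P155.Y877

open MeasureTheory Set Filter Topology Metric InnerProductSpace
open scoped ContDiff

open U CI

theorem rdom {U : Set ℂ} (ho : IsOpen U) (hsc : IsSimplyConnected U) : P153.TOP.RMT.RDom U := by
  have hs : SimplyConnectedSpace U := hsc
  have : LocallyPathConnectedSpace U := ho.locallyPathConnectedSpace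
  refine ⟨hsc.isPathConnected.isConnected, P153.TOP.hasLogOn_of_subtype (fun f hf => ?_)⟩
  obtain ⟨F, hF, hF'⟩ := P153.TOP.hasLogOn_univ_of_simplyConnected U f f.continuous.continuousOn
    (fun x _ => hf x)
  exact ⟨⟨F, continuousOn_univ.1 hF⟩, fun x => hF' x (mem_univ _)⟩

/-- a Riemann map as a pair of inverse maps -/
theorem exists_conf {U : Set ℂ} (ho : IsOpen U) (hsc : IsSimplyConnected U) (hne : U ≠ univ)
    {z : ℂ} (hz : z ∈ U) : ∃ g f : ℂ → ℂ, CI.Conf U (ball 0 1) g f ∧ g z = 0 := by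
  obtain ⟨g, h1, h2, h3, h4, h5⟩ := P153.TOP.RMT.exists_onto_disc ho (rdom ho hsc) hne hz
  have hsd : ∀ w ∈ U, HasStrictDerivAt g (deriv g w) w := fun w hw =>
    (h1.analyticOnNhd ho w hw).hasStrictDerivAt
  set f : ℂ → ℂ := Function.invFunOn g U with hf
  have hfU : ∀ w ∈ ball (0 : ℂ) 1, f w ∈ U ∧ g (f w) = w := by
    intro w hw
    rw [← h3] at hw
    exact ⟨Function.invFunOn_mem hw, Function.invFunOn_eq hw⟩
  have hcont : ∀ w ∈ ball (0 : ℂ) 1, ContinuousAt f w := by
    intro w hw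
    obtain ⟨hz, hgz⟩ := hfU w hw
    rw [ContinuousAt, Filter.tendsto_def]
    intro s hs
    have h6 : g '' (s ∩ U) ∈ 𝓝 (g (f w)) := by
      rw [← (hsd _ hz).map_nhds_eq (h4 _ hz)]
      exact image_mem_map (inter_mem hs (ho.mem_nhds hz))
    rw [hgz] at h6
    filter_upwards [h6] with y hy
    obtain ⟨x, ⟨hxs, hxU⟩, rfl⟩ := hy
    have hy' : g x ∈ ball (0 : ℂ) 1 := by rw [← h3]; exact mem_image_of_mem _ hxU
    have := h2 (hfU _ hy').1 hxU (hfU _ hy').2
    show f (g x) ∈ s
    rw [this]; exact hxs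
  have hder : ∀ w ∈ ball (0 : ℂ) 1, HasStrictDerivAt f (deriv g (f w))⁻¹ w := by
    intro w hw
    obtain ⟨hz, hgz⟩ := hfU w hw
    refine HasStrictDerivAt.of_local_left_inverse (hcont w hw) (hsd _ hz) (h4 _ hz) ?_
    filter_upwards [isOpen_ball.mem_nhds hw] with y hy
    exact (hfU y hy).2
  have hm : MapsTo g U (ball 0 1) := fun w hw => by rw [← h3]; exact mem_image_of_mem _ hw
  refine ⟨g, f, ⟨ho, isOpen_ball, h1,
    fun w hw => (hder w hw).hasDerivAt.differentiableAt.differentiableWithinAt, hm,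
    fun w hw => (hfU w hw).1, fun w hw => ?_, fun w hw => (hfU w hw).2⟩, h5⟩
  exact h2 (hfU _ (hm hw)).1 hw (hfU _ (hm hw)).2

/-! ### size of the bump -/

theorem dst_bdd : ∃ B : ℝ, 0 ≤ B ∧ ∀ t, deriv Real.smoothTransition t ≤ B := by
  have hc : Continuous (deriv Real.smoothTransition) :=
    (Real.smoothTransition.contDiff (n := 1)).continuous_deriv (by norm_num)
  obtain ⟨t₀, ht₀, hmax⟩ := isCompact_Icc.exists_isMaxOn (nonempty_Icc.2 (zero_le_one' ℝ))
    hc.continuousOn
  refine ⟨max 0 (deriv Real.smoothTransition t₀), le_max_left _ _, fun t => ?_⟩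
  by_cases ht : t ∈ Icc (0 : ℝ) 1
  · exact (hmax ht).trans (le_max_right _ _)
  · have h0 : deriv Real.smoothTransition t = 0 := by
      rw [mem_Icc, not_and_or, not_le, not_le] at ht
      rcases ht with ht | ht
      · have h5 : Real.smoothTransition =ᶠ[𝓝 t] fun _ => (0 : ℝ) := by
          filter_upwards [gt_mem_nhds ht] with s hs
          exact Real.smoothTransition.zero_of_nonpos (le_of_lt hs)
        rw [h5.deriv_eq]
        simp
      · have h5 : Real.smoothTransition =ᶠ[𝓝 t] fun _ => (1 : ℝ) := by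
          filter_upwards [lt_mem_nhds ht] with s hs
          exact Real.smoothTransition.one_of_one_le (le_of_lt hs)
        rw [h5.deriv_eq]
        simp
    rw [h0]
    exact le_max_left _ _

theorem dkap_eq (ρ s : ℝ) : deriv (kap ρ) s =
    deriv Real.smoothTransition (2 * s / ρ ^ 2 - 1) * (2 / ρ ^ 2) := by
  have h1 : HasDerivAt (fun s : ℝ => 2 * s / ρ ^ 2 - 1) (2 / ρ ^ 2) s := by
    have := (((hasDerivAt_id s).const_mul 2).div_const (ρ ^ 2)).sub_const 1
    simpa using this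
  have h2 : HasDerivAt Real.smoothTransition
      (deriv Real.smoothTransition (2 * s / ρ ^ 2 - 1)) (2 * s / ρ ^ 2 - 1) :=
    ((Real.smoothTransition.contDiff (n := 1)).differentiable (by norm_num) _).hasDerivAt
  exact (h2.comp s h1).deriv

theorem cR_eq (z : ℂ) (ρ : ℝ) : cR z ρ = cR 0 ρ := by
  unfold cR
  congr 1
  rw [← integral_add_left_eq_self (μ := volume)
    (fun w => ph z ρ w * Mf ρ (‖w - z‖ ^ 2)) z]
  congr 1
  funext w
  unfold ph
  simp

/-- **R1** -/
theorem r1 : YD.R1 := by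
  obtain ⟨B, hB0, hB⟩ := dst_bdd
  refine ⟨2 * B / Real.pi, ph, cR 0, fun z ε hε => ⟨⟨ph_contDiff z ε, ?_, ph_nonneg hε z,
    fun x => ?_, mass_ph hε z⟩, fun U ho hb hsc hBU => ?_⟩⟩
  · refine closure_minimal (fun w hw => ?_) isClosed_closedBall
    by_contra h
    rw [mem_closedBall, not_le, Complex.dist_eq] at h
    exact hw (ph_zero hε h)
  · unfold ph
    rw [dkap_eq, div_div, div_le_div_iff₀ Real.pi_pos (mul_pos Real.pi_pos (by positivity))]
    have h1 := hB (2 * ‖x - z‖ ^ 2 / ε ^ 2 - 1)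
    have h2 : deriv Real.smoothTransition (2 * ‖x - z‖ ^ 2 / ε ^ 2 - 1) * (2 / ε ^ 2) *
        (Real.pi * ε ^ 2) = 2 * Real.pi *
          deriv Real.smoothTransition (2 * ‖x - z‖ ^ 2 / ε ^ 2 - 1) := by
      field_simp
    rw [h2]
    have := Real.pi_pos
    nlinarith
  · have hz : z ∈ U := hBU (mem_closedBall_self hε.le)
    have hne : U ≠ univ := by
      rintro rfl
      exact NormedSpace.unbounded_univ ℝ ℂ hb
    obtain ⟨g, f, h, h0⟩ := exists_conf ho hsc hne hz
    rw [green_disc h h0 hε hBU, cR_eq z ε, one_div]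
    rfl

/-- **R1b**-type consequence: the conformal radius is positive -/
theorem crad_pos {U : Set ℂ} (ho : IsOpen U) (hb : Bornology.IsBounded U)
    (hsc : IsSimplyConnected U) {z : ℂ} (hz : z ∈ U) : 0 < YD.crad U z := by
  have hne : U ≠ univ := by
    rintro rfl
    exact NormedSpace.unbounded_univ ℝ ℂ hb
  obtain ⟨g, f, h, h0⟩ := exists_conf ho hsc hne hz
  exact CR_pos h hz h0

end Vale.Agent.P155.Y877
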