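import Vale.Agent.P155.U.Sub
import Vale.Agent.P155.U.Inj
import Vale.Agent.P155.CI.Green

/-!
# P155, block R1: the Green energy from a potential
-/

namespace Vale.Agent.P155.Y877

open MeasureTheory Set Filter Topology
open scoped ContDiff

open U

theorem nlap_congr {u v : ℂ → ℝ} {z : ℂ} (h : u =ᶠ[𝓝 z] v) : nlap u z = nlap v z := by
  have h1 : ∀ e : ℂ, (fun w => fderiv ℝ u w e) =ᶠ[𝓝 z] fun w => fderiv ℝ v w e := by
    intro e
    filter_upwards [h.eventuallyEq_nhds] with w hw
    rw [hw.fderiv_eq]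
  unfold nlap
  rw [(h1 1).fderiv_eq, (h1 Complex.I).fderiv_eq]

/-- second directional derivative of a composition -/
theorem dd_comp {u : ℂ → ℝ} {z : ℂ} (hu : ContDiffAt ℝ ∞ u z) {F F1 F2 : ℝ → ℝ}
    (h1 : ∀ t, HasDerivAt F (F1 t) t) (h2 : ∀ t, HasDerivAt F1 (F2 t) t) (e : ℂ) :
    fderiv ℝ (fun w => fderiv ℝ (fun x => F (u x)) w e) z e =
      F2 (u z) * fderiv ℝ u z e ^ 2 + F1 (u z) * fderiv ℝ (fun w => fderiv ℝ u w e) z e := by
  have hev : ∀ᶠ w in 𝓝 z, DifferentiableAt ℝ u w := by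
    filter_upwards [(hu.of_le (m := 1) (by norm_num)).eventually (by simp)] with w hw
    exact hw.differentiableAt (by norm_num)
  have e1 : (fun w => fderiv ℝ (fun x => F (u x)) w e) =ᶠ[𝓝 z]
      fun w => F1 (u w) * fderiv ℝ u w e := by
    filter_upwards [hev] with w hw
    have h3 := (h1 (u w)).comp_hasFDerivAt w hw.hasFDerivAt
    have h4 : HasFDerivAt (fun x => F (u x)) (F1 (u w) • fderiv ℝ u w) w := h3
    rw [h4.fderiv]
    rfl
  have h5 : DifferentiableAt ℝ (fun w => fderiv ℝ u w e) z :=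
    (((hu.of_le (m := ((2 : ℕ∞) : WithTop ℕ∞)) (WithTop.coe_le_coe.2 le_top)).fderiv_right (m := 1)
      (by norm_num)).differentiableAt (by norm_num)).clm_apply (differentiableAt_const e)
  have h6 : HasFDerivAt (fun w => F1 (u w)) (F2 (u z) • fderiv ℝ u z) z :=
    (h2 (u z)).comp_hasFDerivAt z (hev.self_of_nhds).hasFDerivAt
  rw [e1.fderiv_eq, (h6.fun_mul h5.hasFDerivAt).fderiv]
  simp only [add_apply, smul_apply, smul_eq_mul]
  ring

theorem nlap_comp {u : ℂ → ℝ} {z : ℂ} (hu : ContDiffAt ℝ ∞ u z) {F F1 F2 : ℝ → ℝ}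
    (h1 : ∀ t, HasDerivAt F (F1 t) t) (h2 : ∀ t, HasDerivAt F1 (F2 t) t) :
    nlap (fun x => F (u x)) z = F1 (u z) * nlap u z - F2 (u z) * ‖fderiv ℝ u z‖ ^ 2 := by
  unfold nlap
  rw [dd_comp hu h1 h2, dd_comp hu h1 h2, norm_sq_clm]
  ring

theorem self_energy {u : ℂ → ℝ} (hu : ContDiff ℝ ∞ u) (huc : HasCompactSupport u) :
    ∫ z, ‖fderiv ℝ u z‖ ^ 2 = ∫ z, nlap u z * u z := by
  have h := energy_identity hu huc hu huc
  have h0 : ∫ z, ‖fderiv ℝ (fun w => u w - u w) z‖ ^ 2 = 0 := by simp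
  rw [h0] at h
  linarith

theorem test_nlap_int {U : Set ℂ} {w : ℂ → ℝ} (hw : IsTest U w) :
    Integrable (fun z => nlap w z * w z) :=
  ((isTest_nlap hw).1.continuous.mul hw.1.continuous).integrable_of_hasCompactSupport
    hw.2.1.mul_left

/-- a smooth function on `U` which tends to zero at the boundary computes the Green energy -/
theorem green_of_pot {U : Set ℂ} (hU : IsOpen U) {u φ : ℂ → ℝ}
    (hu : ∀ z ∈ U, ContDiffAt ℝ ∞ u z) (hpos : ∀ z ∈ U, 0 < u z)
    (hlim : ∀ δ : ℝ, 0 < δ → ∃ K, IsCompact K ∧ K ⊆ U ∧ ∀ z ∈ U, δ ≤ u z → z ∈ K)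
    (hφ : IsTest U φ) (hφ0 : ∀ z, 0 ≤ φ z) (hnl : ∀ z ∈ U, nlap u z = φ z) :
    greenEnergy U φ = ∫ z, φ z * u z := by
  classical
  have hint : Integrable (fun z => φ z * u z) := by
    have hc : Continuous (fun z => φ z * u z) := by
      rw [continuous_iff_continuousAt]
      intro z
      by_cases hz : z ∈ U
      · exact hφ.1.continuous.continuousAt.mul (hu z hz).continuousAt
      · have h0 : (fun z => φ z * u z) =ᶠ[𝓝 z] fun _ => 0 := by
          have h1 : z ∉ tsupport φ := fun h => hz (hφ.2.2 h)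
          filter_upwards [(isClosed_tsupport φ).isOpen_compl.mem_nhds h1] with w hw
          rw [image_eq_zero_of_notMem_tsupport hw, zero_mul]
        exact (continuousAt_const.congr h0.symm)
    exact hc.integrable_of_hasCompactSupport hφ.2.1.mul_right
  -- the truncations
  have key : ∀ δ : ℝ, 0 < δ → ∃ w : ℂ → ℝ, IsTest U w ∧
      (∀ z ∈ U, w z = T δ (u z)) ∧ (∫ z, ‖fderiv ℝ w z‖ ^ 2) ≤ (∫ z, φ z * u z) ∧
      ∀ z ∈ U, 2 * δ < u z → nlap w z = φ z := by
    intro δ hδ
    obtain ⟨K, hK, hKU, hK2⟩ := hlim δ hδ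
    set w : ℂ → ℝ := fun z => if z ∈ U then T δ (u z) else 0 with hw
    have hwU : ∀ z ∈ U, w z = T δ (u z) := fun z hz => by rw [hw]; exact if_pos hz
    have hwe : ∀ z ∈ U, w =ᶠ[𝓝 z] fun x => T δ (u x) := fun z hz => by
      filter_upwards [hU.mem_nhds hz] with x hx
      exact hwU x hx
    have ht : IsTest U w := by
      refine CI.isTest_of (Ω := U) hK hKU subset_rfl (fun z hz => ?_) (fun z hz => ?_)
      · exact ((T_contDiff (ε := δ)).contDiffAt.comp z (hu z hz)).congr_of_eventuallyEq (hwe z hz)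
      · by_cases hzU : z ∈ U
        · rw [hwU z hzU]
          refine T_zero hδ ?_
          by_contra h
          exact hz (hK2 z hzU (not_le.1 h).le)
        · rw [hw]
          exact if_neg hzU
    have hd1 : ∀ t, HasDerivAt (T δ) (Real.smoothTransition (t / δ - 1)) t := T_hasDerivAt hδ
    have hd2 : ∀ t, HasDerivAt (fun t => Real.smoothTransition (t / δ - 1))
        (deriv (fun t => Real.smoothTransition (t / δ - 1)) t) t := by
      intro t
      have h1 : ContDiff ℝ 1 (fun t : ℝ => Real.smoothTransition (t / δ - 1)) :=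
        Real.smoothTransition.contDiff.comp ((contDiff_id.div_const δ).sub contDiff_const)
      exact (h1.differentiable (by norm_num) t).hasDerivAt
    have hd2n : ∀ t, 0 ≤ deriv (fun t => Real.smoothTransition (t / δ - 1)) t := by
      intro t
      have hm : Monotone (fun t : ℝ => Real.smoothTransition (t / δ - 1)) := by
        intro a b hab
        refine Real.smoothTransition.monotone ?_
        have : a / δ ≤ b / δ := div_le_div_of_nonneg_right hab hδ.le
        linarith
      exact hm.deriv_nonneg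
    have hnw : ∀ z ∈ U, nlap w z = Real.smoothTransition (u z / δ - 1) * φ z -
        deriv (fun t => Real.smoothTransition (t / δ - 1)) (u z) * ‖fderiv ℝ u z‖ ^ 2 := by
      intro z hz
      rw [nlap_congr (hwe z hz), nlap_comp (hu z hz) hd1 hd2, hnl z hz]
    refine ⟨w, ht, hwU, ?_, ?_⟩
    · rw [self_energy ht.1 ht.2.1]
      refine integral_mono (test_nlap_int ht) hint (fun z => ?_)
      show nlap w z * w z ≤ φ z * u z
      by_cases hz : z ∈ U
      · rw [hnw z hz, hwU z hz]
        have a1 := Real.smoothTransition.nonneg (u z / δ - 1)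
        have a2 := Real.smoothTransition.le_one (u z / δ - 1)
        have a3 := T_nonneg hδ (u z)
        have a4 := T_le hδ (hpos z hz).le
        have a5 := hd2n (u z)
        have a6 := hφ0 z
        have a7 : 0 ≤ ‖fderiv ℝ u z‖ ^ 2 := sq_nonneg _
        have b1 : 0 ≤ deriv (fun t => Real.smoothTransition (t / δ - 1)) (u z) *
            ‖fderiv ℝ u z‖ ^ 2 * T δ (u z) := mul_nonneg (mul_nonneg a5 a7) a3
        have b2 : Real.smoothTransition (u z / δ - 1) * φ z * T δ (u z) ≤ 1 * φ z * u z :=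
          mul_le_mul (mul_le_mul_of_nonneg_right a2 a6) a4 a3 (by positivity)
        nlinarith
      · have e0 : w z = 0 := by rw [hw]; exact if_neg hz
        have e1 : φ z = 0 := test_zero hφ hz
        rw [e0, e1, mul_zero, zero_mul]
    · intro z hz h2
      rw [hnw z hz]
      have h3 : Real.smoothTransition (u z / δ - 1) = 1 := by
        refine Real.smoothTransition.one_of_one_le ?_
        rw [le_sub_iff_add_le, le_div_iff₀ hδ]
        linarith
      have h4 : deriv (fun t => Real.smoothTransition (t / δ - 1)) (u z) = 0 := by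
        have h5 : (fun t => Real.smoothTransition (t / δ - 1)) =ᶠ[𝓝 (u z)] fun _ => (1 : ℝ) := by
          filter_upwards [lt_mem_nhds h2] with t ht
          refine Real.smoothTransition.one_of_one_le ?_
          rw [le_sub_iff_add_le, le_div_iff₀ hδ]
          linarith
        rw [h5.deriv_eq]
        simp
      rw [h3, h4]
      ring
  have hup : ∀ v, IsTest U v → 2 * (∫ z, φ z * v z) - ∫ z, ‖fderiv ℝ v z‖ ^ 2 ≤
      ∫ z, φ z * u z := by
    intro v hv
    obtain ⟨δ, hδ, hδv⟩ : ∃ δ : ℝ, 0 < δ ∧ ∀ z ∈ tsupport v, 2 * δ < u z := by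
      rcases (tsupport v).eq_empty_or_nonempty with h | h
      · exact ⟨1, one_pos, fun z hz => by rw [h] at hz; exact hz.elim⟩
      · obtain ⟨z₀, hz₀, hmin⟩ := hv.2.1.isCompact.exists_isMinOn h
          (fun z hz => (hu z (hv.2.2 hz)).continuousAt.continuousWithinAt)
        have h0 := hpos z₀ (hv.2.2 hz₀)
        refine ⟨u z₀ / 3, by positivity, fun z hz => ?_⟩
        have := hmin hz
        simp only [mem_ofPred_eq] at this
        linarith
    obtain ⟨w, hw, -, hwE, hwn⟩ := key δ hδ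
    have e1 : ∫ z, φ z * v z = ∫ z, nlap w z * v z := by
      congr 1
      funext z
      by_cases hz : z ∈ tsupport v
      · rw [hwn z (hv.2.2 hz) (hδv z hz)]
      · rw [image_eq_zero_of_notMem_tsupport hz, mul_zero, mul_zero]
    rw [e1, energy_identity hw.1 hw.2.1 hv.1 hv.2.1]
    have : 0 ≤ ∫ z, ‖fderiv ℝ (fun x => w x - v x) z‖ ^ 2 := integral_nonneg fun z => sq_nonneg _
    linarith
  apply le_antisymm (greenEnergy_le hup)
  have hbdd : BddAbove {x | ∃ v, IsTest U v ∧ x = 2 * (∫ z, φ z * v z) -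
      ∫ z, ‖fderiv ℝ v z‖ ^ 2} := ⟨_, by rintro x ⟨v, hv, rfl⟩; exact hup v hv⟩
  have hI0 : 0 ≤ ∫ z, φ z := integral_nonneg hφ0
  refine le_of_forall_pos_le_add fun ε hε => ?_
  set δ : ℝ := ε / (4 * ((∫ z, φ z) + 1)) with hδ
  have hδ0 : 0 < δ := by positivity
  obtain ⟨w, hw, hwU, hwE, -⟩ := key δ hδ0
  have h1 : 2 * (∫ z, φ z * w z) - ∫ z, ‖fderiv ℝ w z‖ ^ 2 ≤ greenEnergy U φ :=
    le_csSup hbdd ⟨w, hw, rfl⟩
  have hint2 : Integrable (fun z => φ z * w z) :=
    (hφ.1.continuous.mul hw.1.continuous).integrable_of_hasCompactSupport hφ.2.1.mul_right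
  have h2 : (∫ z, φ z * u z) - 2 * δ * ∫ z, φ z ≤ ∫ z, φ z * w z := by
    rw [← integral_const_mul, ← integral_sub hint ((test_int hφ).const_mul _)]
    refine integral_mono (hint.sub ((test_int hφ).const_mul _)) hint2 (fun z => ?_)
    show φ z * u z - 2 * δ * φ z ≤ φ z * w z
    by_cases hz : z ∈ U
    · rw [hwU z hz]
      have a1 := T_ge hδ0 (u z)
      have a2 := hφ0 z
      nlinarith
    · rw [test_zero hφ hz]
      simp
  have h3 : δ * (4 * ((∫ z, φ z) + 1)) = ε := by
    rw [hδ]; field_simp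
  nlinarith

end Vale.Agent.P155.Y877
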