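import Vale.Agent.P155.Y877.Rad

/-!
# P155, block R1: conformal radius and the Green energy of the radial bump
-/

namespace Vale.Agent.P155.Y877

open MeasureTheory Set Filter Topology Metric InnerProductSpace
open scoped ContDiff

open U CI

/-- the conformal radius of `U` seen from `z` -/
noncomputable def CR (z : ℂ) (U : Set ℂ) : ℝ :=
  sSup {r | ∃ f : ℂ → ℂ, DifferentiableOn ℂ f (ball 0 1) ∧ MapsTo f (ball 0 1) U ∧ f 0 = z ∧
    r = ‖deriv f 0‖}

section
variable {U : Set ℂ} {z : ℂ} {g f : ℂ → ℂ} (h : CI.Conf U (ball 0 1) g f) (hz : z ∈ U)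
  (h0 : g z = 0)
include h hz h0

theorem der_ne : deriv g z ≠ 0 := h.deriv_ne hz

theorem CR_bound {r : ℝ} (hr : r ∈ {r | ∃ f : ℂ → ℂ, DifferentiableOn ℂ f (ball 0 1) ∧
    MapsTo f (ball 0 1) U ∧ f 0 = z ∧ r = ‖deriv f 0‖}) : r ≤ ‖deriv g z‖⁻¹ := by
  obtain ⟨k, hk, hkm, hk0, rfl⟩ := hr
  have h1 : DifferentiableOn ℂ (g ∘ k) (ball 0 1) := h.df.comp hk hkm
  have h2 : (g ∘ k) 0 = 0 := by rw [Function.comp_apply, hk0, h0]
  have h3 : ‖deriv (g ∘ k) 0‖ ≤ 1 := by
    refine Complex.norm_deriv_le_one_of_mapsTo_ball h1 ?_ one_pos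
    rw [h2]
    exact fun x hx => ball_subset_closedBall (h.mf (hkm hx))
  have h4 : deriv (g ∘ k) 0 = deriv g z * deriv k 0 := by
    have h5 : HasDerivAt k (deriv k 0) 0 :=
      (hk.differentiableAt (isOpen_ball.mem_nhds (mem_ball_self one_pos))).hasDerivAt
    have h6 : HasDerivAt g (deriv g z) (k 0) := by rw [hk0]; exact h.hasDerivAt hz
    exact (h6.comp 0 h5).deriv
  rw [h4, norm_mul] at h3
  have h7 : 0 < ‖deriv g z‖ := norm_pos_iff.2 (der_ne h hz h0)
  rw [← one_div, le_div_iff₀ h7, mul_comm]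
  exact h3

theorem CR_eq : CR z U = ‖deriv g z‖⁻¹ := by
  apply le_antisymm
  · refine csSup_le ⟨‖deriv f 0‖, f, h.dg, h.mg, ?_, rfl⟩ fun r hr => CR_bound h hz h0 hr
    rw [← h0, h.gf z hz]
  · refine le_csSup ⟨_, fun r hr => CR_bound h hz h0 hr⟩ ⟨f, h.dg, h.mg, ?_, ?_⟩
    · rw [← h0, h.gf z hz]
    · have h1 := h.deriv_mul hz
      rw [h0] at h1
      have h2 : ‖deriv f 0‖ * ‖deriv g z‖ = 1 := by rw [← norm_mul, h1, norm_one]
      exact (eq_inv_of_mul_eq_one_left h2).symm

theorem CR_pos : 0 < CR z U := by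
  rw [CR_eq h hz h0]
  exact inv_pos.2 (norm_pos_iff.2 (der_ne h hz h0))

/-! ### the quotient `g(w)/(w-z)` -/

theorem ds_mul (w : ℂ) : (w - z) * dslope g z w = g w := by
  have := sub_smul_dslope g z w
  rw [h0, sub_zero, smul_eq_mul] at this
  exact this

theorem ds_diff : DifferentiableOn ℂ (dslope g z) U :=
  (Complex.differentiableOn_dslope (h.ho.mem_nhds hz)).2 h.df

theorem g_ne {w : ℂ} (hw : w ∈ U) (hne : w ≠ z) : g w ≠ 0 := by
  intro h1
  apply hne
  rw [← h.gf w hw, h1, ← h0, h.gf z hz]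

theorem ds_ne {w : ℂ} (hw : w ∈ U) : dslope g z w ≠ 0 := by
  by_cases hwz : w = z
  · subst hwz
    rw [dslope_same]
    exact der_ne h hz h0
  · intro h1
    have h2 := ds_mul h hz h0 w
    rw [h1, mul_zero] at h2
    exact g_ne h hz h0 hw hwz h2.symm

theorem ds_analytic {w : ℂ} (hw : w ∈ U) : AnalyticAt ℂ (dslope g z) w :=
  (ds_diff h hz h0).analyticAt (h.ho.mem_nhds hw)

theorem harm_ds {w : ℂ} (hw : w ∈ U) : HarmonicAt (fun w => Real.log ‖dslope g z w‖) w :=
  (ds_analytic h hz h0 hw).harmonicAt_log_norm (ds_ne h hz h0 hw)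

theorem smooth_ds {w : ℂ} (hw : w ∈ U) :
    ContDiffAt ℝ ∞ (fun w => Real.log ‖dslope g z w‖) w := by
  have h1 : ContDiffAt ℝ ∞ (dslope g z) w :=
    ((ds_analytic h hz h0 hw).contDiffAt (n := ∞)).restrict_scalars ℝ
  have h2 : ContDiffAt ℝ ∞ (fun w => ‖dslope g z w‖) w := h1.norm ℝ (ds_ne h hz h0 hw)
  exact h2.log (norm_ne_zero_iff.2 (ds_ne h hz h0 hw))

theorem log_ds {w : ℂ} (hw : w ∈ U) (hne : w ≠ z) :
    Real.log ‖dslope g z w‖ = Real.log ‖g w‖ - Real.log ‖w - z‖ := by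
  rw [← ds_mul h hz h0 w, norm_mul, Real.log_mul (norm_ne_zero_iff.2 (sub_ne_zero.2 hne))
    (norm_ne_zero_iff.2 (ds_ne h hz h0 hw))]
  ring

theorem norm_g_lt {w : ℂ} (hw : w ∈ U) : ‖g w‖ < 1 := mem_ball_zero_iff.1 (h.mf hw)

end

/-- the constant -/
noncomputable def cR (z : ℂ) (ρ : ℝ) : ℝ :=
  -(1 / (2 * Real.pi)) * ∫ w, ph z ρ w * Mf ρ (‖w - z‖ ^ 2)

theorem Mf_le {ρ s : ℝ} (hρ : 0 < ρ) (hs : 0 ≤ s) (h : s ≤ ρ ^ 2) : Mf ρ s ≤ Real.log ρ := by
  have h1 : MonotoneOn (Mf ρ) (Ici 0) := by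
    refine monotoneOn_of_deriv_nonneg (convex_Ici 0) (Mf_contDiff hρ).continuous.continuousOn
      ((Mf_contDiff hρ).differentiable (by norm_num)).differentiableOn fun x hx => ?_
    rw [interior_Ici, mem_Ioi] at hx
    rw [(Mf_hasDerivAt hρ x).deriv]
    exact div_nonneg (Real.smoothTransition.nonneg _) (by positivity)
  have h2 := h1 hs (show (0 : ℝ) ≤ ρ ^ 2 by positivity) h
  rw [Mf_eq hρ le_rfl, Real.log_pow] at h2
  push_cast at h2
  linarith

section
variable {U : Set ℂ} {z : ℂ} {g f : ℂ → ℂ} (h : CI.Conf U (ball 0 1) g f)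
  (h0 : g z = 0) {ρ : ℝ} (hρ : 0 < ρ) (hB : closedBall z ρ ⊆ U)
include h h0 hρ hB

theorem neg_pot {w : ℂ} (hw : w ∈ U) :
    Real.log ‖dslope g z w‖ + Mf ρ (‖w - z‖ ^ 2) < 0 := by
  have hz : z ∈ U := hB (mem_closedBall_self hρ.le)
  rcases le_or_gt ρ ‖w - z‖ with h1 | h1
  · have hne : w ≠ z := by
      rintro rfl
      rw [sub_self, norm_zero] at h1
      linarith
    rw [log_ds h hz h0 hw hne, Mf_eq hρ (by gcongr), Real.log_pow]
    have h2 : Real.log ‖g w‖ < 0 :=
      Real.log_neg (norm_pos_iff.2 (g_ne h hz h0 hw hne)) (norm_g_lt h hz h0 hw)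
    push_cast
    linarith
  · obtain ⟨x, hx, hmax⟩ := Complex.exists_mem_frontier_isMaxOn_norm (f := dslope g z)
      (U := ball z ρ) isBounded_ball ⟨z, mem_ball_self hρ⟩
      (by
        refine DifferentiableOn.diffContOnCl ?_
        rw [closure_ball z hρ.ne']
        exact (ds_diff h hz h0).mono hB)
    rw [frontier_ball z hρ.ne', mem_sphere, Complex.dist_eq] at hx
    have hxz : x ≠ z := by
      rintro rfl
      rw [sub_self, norm_zero] at hx
      linarith
    have hxU : x ∈ U := hB (by rw [mem_closedBall, Complex.dist_eq, hx])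
    have h2 : ‖dslope g z w‖ ≤ ‖dslope g z x‖ := by
      have := hmax (subset_closure (by rw [mem_ball, Complex.dist_eq]; exact h1 : w ∈ ball z ρ))
      exact this
    have h3 : Real.log ‖dslope g z w‖ ≤ Real.log ‖dslope g z x‖ :=
      Real.log_le_log (norm_pos_iff.2 (ds_ne h hz h0 hw)) h2
    rw [log_ds h hz h0 hxU hxz, hx] at h3
    have h4 : Real.log ‖g x‖ < 0 :=
      Real.log_neg (norm_pos_iff.2 (g_ne h hz h0 hxU hxz)) (norm_g_lt h hz h0 hxU)
    have h5 : Mf ρ (‖w - z‖ ^ 2) ≤ Real.log ρ := Mf_le hρ (by positivity) (by gcongr)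
    linarith

/-- **the Green energy of the radial bump** in a domain with a Riemann map -/
theorem green_disc : greenEnergy U (ph z ρ) =
    cR z ρ + 1 / (2 * Real.pi) * Real.log (CR z U) := by
  have hz : z ∈ U := hB (mem_closedBall_self hρ.le)
  have hpi := Real.pi_pos
  set u : ℂ → ℝ := fun w => -(1 / (2 * Real.pi)) *
    (Real.log ‖dslope g z w‖ + Mf ρ (‖w - z‖ ^ 2)) with hu
  have hMs : ∀ w : ℂ, ContDiffAt ℝ ∞ (fun w => Mf ρ (‖w - z‖ ^ 2)) w := fun w =>
    ((Mf_contDiff hρ).comp (sq_contDiff z)).contDiffAt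
  have h1 : greenEnergy U (ph z ρ) = ∫ w, ph z ρ w * u w := by
    refine green_of_pot h.ho (fun w hw => ?_) (fun w hw => ?_) (fun δ hδ => ?_)
      (isTest_ph hρ hB) (ph_nonneg hρ z) (fun w hw => ?_)
    · exact contDiffAt_const.mul ((smooth_ds h hz h0 hw).add (hMs w))
    · have := neg_pot h h0 hρ hB hw
      rw [hu]
      simp only
      have h2 : 0 < 1 / (2 * Real.pi) := by positivity
      nlinarith
    · refine ⟨f '' closedBall 0 (Real.exp (-(2 * Real.pi * δ))) ∪ closedBall z ρ, ?_, ?_, ?_⟩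
      · refine IsCompact.union ?_ (isCompact_closedBall z ρ)
        refine (isCompact_closedBall _ _).image_of_continuousOn (h.dg.continuousOn.mono ?_)
        exact closedBall_subset_ball (Real.exp_lt_one_iff.2 (by simp; positivity))
      · refine union_subset ?_ hB
        rintro _ ⟨x, hx, rfl⟩
        exact h.mg (closedBall_subset_ball (Real.exp_lt_one_iff.2 (by simp; positivity)) hx)
      · intro w hw hδw
        rcases le_or_gt ‖w - z‖ ρ with h2 | h2
        · right
          rw [mem_closedBall, Complex.dist_eq]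
          exact h2
        · left
          have hne : w ≠ z := by
            rintro rfl
            rw [sub_self, norm_zero] at h2
            linarith
          refine ⟨g w, ?_, h.gf w hw⟩
          rw [mem_closedBall_zero_iff]
          rw [hu] at hδw
          simp only at hδw
          rw [log_ds h hz h0 hw hne, Mf_eq hρ (by gcongr), Real.log_pow] at hδw
          push_cast at hδw
          have h3 : Real.log ‖g w‖ ≤ -(2 * Real.pi * δ) := by
            have h4 : 1 / (2 * Real.pi) * (-Real.log ‖g w‖) = -(1 / (2 * Real.pi)) *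
                (Real.log ‖g w‖ - Real.log ‖w - z‖ + 2 * Real.log ‖w - z‖ / 2) := by ring
            rw [← h4, one_div, inv_mul_eq_div, le_div_iff₀ (by positivity)] at hδw
            linarith
          rw [← Real.exp_log (norm_pos_iff.2 (g_ne h hz h0 hw hne))]
          exact Real.exp_le_exp.2 h3
    · have h2 : nlap u w = -(1 / (2 * Real.pi)) * (nlap (fun w => Real.log ‖dslope g z w‖) w +
          nlap (fun w => Mf ρ (‖w - z‖ ^ 2)) w) :=
        nlap_lin ((harm_ds h hz h0 hw).1) ((hMs w).of_le (m := ((2 : ℕ∞) : WithTop ℕ∞)) (WithTop.coe_le_coe.2 le_top)) _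
      rw [h2, nlap_harmonic (harm_ds h hz h0 hw), nlap_M hρ]
      field_simp
      ring
  have hcs : HasCompactSupport (ph z ρ) := (isTest_ph hρ (subset_univ _)).2.1
  have hcM : Continuous (fun w : ℂ => Mf ρ (‖w - z‖ ^ 2)) :=
    ((Mf_contDiff hρ).comp (sq_contDiff z)).continuous
  have i1 : Integrable (fun w => ph z ρ w * Mf ρ (‖w - z‖ ^ 2)) :=
    ((ph_contDiff z ρ).continuous.mul hcM).integrable_of_hasCompactSupport hcs.mul_right
  have hharm : HarmonicOnNhd (fun w => Real.log ‖dslope g z w‖) (closedBall z ρ) :=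
    fun w hw => harm_ds h hz h0 (hB hw)
  have i2 : Integrable (fun w => ph z ρ w * Real.log ‖dslope g z w‖) := by
    have hc : Continuous (fun w => ph z ρ w * Real.log ‖dslope g z w‖) := by
      rw [continuous_iff_continuousAt]
      intro w
      by_cases hw : w ∈ U
      · exact (ph_contDiff z ρ).continuous.continuousAt.mul (smooth_ds h hz h0 hw).continuousAt
      · have h2 : (fun w => ph z ρ w * Real.log ‖dslope g z w‖) =ᶠ[𝓝 w] fun _ => 0 := by
          have h3 : w ∉ tsupport (ph z ρ) := fun h => hw ((isTest_ph hρ hB).2.2 h)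
          filter_upwards [(isClosed_tsupport _).isOpen_compl.mem_nhds h3] with x hx
          rw [image_eq_zero_of_notMem_tsupport hx, zero_mul]
        exact (continuousAt_const.congr h2.symm)
    exact hc.integrable_of_hasCompactSupport hcs.mul_right
  have h2 : ∫ w, ph z ρ w * u w = -(1 / (2 * Real.pi)) * ((∫ w, ph z ρ w *
      Real.log ‖dslope g z w‖) + ∫ w, ph z ρ w * Mf ρ (‖w - z‖ ^ 2)) := by
    rw [← integral_add i2 i1, ← integral_const_mul]
    congr 1
    funext w
    rw [hu]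
    ring
  rw [h1, h2, mean_ph hρ hharm, CR_eq h hz h0, Real.log_inv, dslope_same]
  unfold cR
  ring

end

end Vale.Agent.P155.Y877
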