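import Vale.Agent.P155.Y877.Abs

/-!
# P155, block R1: the radial bump and its potential
-/

namespace Vale.Agent.P155.Y877

open MeasureTheory Set Filter Topology Metric InnerProductSpace
open scoped ContDiff

open U

/-! ### the profile -/

/-- smooth cutoff: `0` for `s ≤ ρ²/2`, `1` for `s ≥ ρ²` -/
noncomputable def kap (ρ s : ℝ) : ℝ := Real.smoothTransition (2 * s / ρ ^ 2 - 1)

theorem kap_zero {ρ s : ℝ} (hρ : 0 < ρ) (h : s ≤ ρ ^ 2 / 2) : kap ρ s = 0 := by
  refine Real.smoothTransition.zero_of_nonpos ?_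
  rw [sub_nonpos, div_le_one (by positivity)]
  linarith

theorem kap_one {ρ s : ℝ} (hρ : 0 < ρ) (h : ρ ^ 2 ≤ s) : kap ρ s = 1 := by
  refine Real.smoothTransition.one_of_one_le ?_
  rw [le_sub_iff_add_le, le_div_iff₀ (by positivity)]
  linarith

theorem kap_contDiff {ρ : ℝ} {n : ℕ∞} : ContDiff ℝ n (kap ρ) :=
  Real.smoothTransition.contDiff.comp (((contDiff_const.mul contDiff_id).div_const _).sub
    contDiff_const)

theorem kap_mono {ρ : ℝ} (hρ : 0 < ρ) : Monotone (kap ρ) := by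
  intro a b hab
  refine Real.smoothTransition.monotone ?_
  have : 2 * a / ρ ^ 2 ≤ 2 * b / ρ ^ 2 := by
    apply div_le_div_of_nonneg_right _ (by positivity)
    linarith
  linarith

theorem kap_hasDerivAt (ρ s : ℝ) : HasDerivAt (kap ρ) (deriv (kap ρ) s) s :=
  ((kap_contDiff (n := 1)).differentiable (by norm_num) s).hasDerivAt

theorem dkap_nonneg {ρ : ℝ} (hρ : 0 < ρ) (s : ℝ) : 0 ≤ deriv (kap ρ) s :=
  (kap_mono hρ).deriv_nonneg

theorem dkap_contDiff {ρ : ℝ} : ContDiff ℝ ∞ (deriv (kap ρ)) := by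
  have h : ContDiff ℝ ∞ (kap ρ) := kap_contDiff (n := ⊤)
  exact (contDiff_infty_iff_deriv.1 h).2

theorem dkap_zero {ρ s : ℝ} (hρ : 0 < ρ) (h : ρ ^ 2 < s) : deriv (kap ρ) s = 0 := by
  have h5 : kap ρ =ᶠ[𝓝 s] fun _ => (1 : ℝ) := by
    filter_upwards [lt_mem_nhds h] with t ht
    exact kap_one hρ ht.le
  rw [h5.deriv_eq]
  simp

/-- the derivative of the potential profile -/
noncomputable def Mp (ρ s : ℝ) : ℝ := kap ρ s / (2 * s)

theorem Mp_contDiff {ρ : ℝ} (hρ : 0 < ρ) : ContDiff ℝ ∞ (Mp ρ) := by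
  rw [contDiff_iff_contDiffAt]
  intro s
  rcases lt_or_ge s (ρ ^ 2 / 2) with h | h
  · refine (contDiffAt_const (c := (0 : ℝ))).congr_of_eventuallyEq ?_
    filter_upwards [gt_mem_nhds h] with t ht
    unfold Mp
    rw [kap_zero hρ ht.le, zero_div]
  · have hs : 0 < s := lt_of_lt_of_le (by positivity) h
    exact (kap_contDiff (n := ⊤)).contDiffAt.div (contDiffAt_const.mul contDiffAt_id)
      (by simp; exact hs.ne')

theorem mul_Mp {ρ : ℝ} (hρ : 0 < ρ) (s : ℝ) : s * Mp ρ s = kap ρ s / 2 := by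
  unfold Mp
  by_cases hs : s = 0
  · subst hs
    rw [kap_zero hρ (by positivity)]
    simp
  · field_simp

theorem Mp_hasDerivAt {ρ : ℝ} (hρ : 0 < ρ) (s : ℝ) : HasDerivAt (Mp ρ) (deriv (Mp ρ) s) s :=
  ((Mp_contDiff hρ).differentiable (by norm_num) s).hasDerivAt

theorem Mp_id {ρ : ℝ} (hρ : 0 < ρ) (s : ℝ) :
    Mp ρ s + s * deriv (Mp ρ) s = deriv (kap ρ) s / 2 := by
  have h1 : HasDerivAt (fun s => s * Mp ρ s) (1 * Mp ρ s + s * deriv (Mp ρ) s) s :=
    (hasDerivAt_id s).fun_mul (Mp_hasDerivAt hρ s)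
  have h2 : HasDerivAt (fun s => s * Mp ρ s) (deriv (kap ρ) s / 2) s := by
    have e : (fun s => s * Mp ρ s) = fun s => kap ρ s / 2 := funext (mul_Mp hρ)
    rw [e]
    exact (kap_hasDerivAt ρ s).div_const 2
  have h3 := h1.unique h2
  rw [one_mul] at h3
  exact h3

/-- the potential profile: `(log s)/2` for `s ≥ ρ²` -/
noncomputable def Mf (ρ s : ℝ) : ℝ := Real.log ρ + ∫ t in (ρ ^ 2)..s, Mp ρ t

theorem Mf_hasDerivAt {ρ : ℝ} (hρ : 0 < ρ) (s : ℝ) : HasDerivAt (Mf ρ) (Mp ρ s) s := by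
  have hc : Continuous (Mp ρ) := (Mp_contDiff hρ).continuous
  exact (intervalIntegral.integral_hasDerivAt_right (hc.intervalIntegrable _ _)
    (hc.stronglyMeasurableAtFilter _ _) hc.continuousAt).const_add _

theorem Mf_contDiff {ρ : ℝ} (hρ : 0 < ρ) : ContDiff ℝ ∞ (Mf ρ) := by
  have h1 : deriv (Mf ρ) = Mp ρ := by
    funext t
    exact (Mf_hasDerivAt hρ t).deriv
  rw [contDiff_infty_iff_deriv, h1]
  exact ⟨fun t => (Mf_hasDerivAt hρ t).differentiableAt, Mp_contDiff hρ⟩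

theorem Mf_eq {ρ s : ℝ} (hρ : 0 < ρ) (h : ρ ^ 2 ≤ s) : Mf ρ s = Real.log s / 2 := by
  have hs : 0 < s := lt_of_lt_of_le (by positivity) h
  have e : ∫ t in (ρ ^ 2)..s, Mp ρ t = ∫ t in (ρ ^ 2)..s, (1 / 2) * t⁻¹ := by
    refine intervalIntegral.integral_congr (fun t ht => ?_)
    rw [uIcc_of_le h] at ht
    have ht0 : 0 < t := lt_of_lt_of_le (by positivity) ht.1
    show kap ρ t / (2 * t) = (1 / 2) * t⁻¹
    rw [kap_one hρ ht.1]
    field_simp
  unfold Mf
  rw [e, intervalIntegral.integral_const_mul, integral_inv_of_pos (by positivity) hs,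
    Real.log_div hs.ne' (by positivity), Real.log_pow]
  push_cast
  ring

/-! ### Laplacians -/

theorem sq_eq (z w : ℂ) : ‖w - z‖ ^ 2 = (w.re - z.re) ^ 2 + (w.im - z.im) ^ 2 := by
  rw [Complex.sq_norm, Complex.normSq_apply, Complex.sub_re, Complex.sub_im]
  ring

theorem sq_contDiff (z : ℂ) : ContDiff ℝ ∞ (fun w : ℂ => ‖w - z‖ ^ 2) :=
  (contDiff_id.sub contDiff_const).norm_sq ℝ

theorem fderiv_sq (z w e : ℂ) : fderiv ℝ (fun w : ℂ => ‖w - z‖ ^ 2) w e =
    2 * ((w.re - z.re) * e.re + (w.im - z.im) * e.im) := by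
  have h1 : HasFDerivAt (fun w : ℂ => w.re - z.re) Complex.reCLM w :=
    (Complex.reCLM.hasFDerivAt).sub_const _
  have h2 : HasFDerivAt (fun w : ℂ => w.im - z.im) Complex.imCLM w :=
    (Complex.imCLM.hasFDerivAt).sub_const _
  have h3 := (h1.fun_mul h1).fun_add (h2.fun_mul h2)
  have e1 : (fun w : ℂ => ‖w - z‖ ^ 2) = fun w : ℂ =>
      (w.re - z.re) * (w.re - z.re) + (w.im - z.im) * (w.im - z.im) := by
    funext w
    rw [sq_eq]
    ring
  rw [e1, h3.fderiv]
  simp only [add_apply, smul_apply, smul_eq_mul, Complex.reCLM_apply, Complex.imCLM_apply]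
  ring

theorem nlap_sq (z w : ℂ) : nlap (fun w : ℂ => ‖w - z‖ ^ 2) w = -4 := by
  have e1 : (fun w : ℂ => fderiv ℝ (fun w : ℂ => ‖w - z‖ ^ 2) w 1) =
      fun w => 2 * (w.re - z.re) := by
    funext w
    rw [fderiv_sq]
    simp
  have e2 : (fun w : ℂ => fderiv ℝ (fun w : ℂ => ‖w - z‖ ^ 2) w Complex.I) =
      fun w => 2 * (w.im - z.im) := by
    funext w
    rw [fderiv_sq]
    simp
  have h1 : HasFDerivAt (fun w : ℂ => 2 * (w.re - z.re)) ((2 : ℝ) • Complex.reCLM) w :=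
    ((Complex.reCLM.hasFDerivAt).sub_const _).const_mul 2
  have h2 : HasFDerivAt (fun w : ℂ => 2 * (w.im - z.im)) ((2 : ℝ) • Complex.imCLM) w :=
    ((Complex.imCLM.hasFDerivAt).sub_const _).const_mul 2
  unfold nlap
  rw [e1, e2, h1.fderiv, h2.fderiv]
  simp
  norm_num

theorem norm_fderiv_sq (z w : ℂ) : ‖fderiv ℝ (fun w : ℂ => ‖w - z‖ ^ 2) w‖ ^ 2 =
    4 * ‖w - z‖ ^ 2 := by
  rw [norm_sq_clm, fderiv_sq, fderiv_sq, sq_eq]
  simp
  ring

/-- the radial bump -/
noncomputable def ph (z : ℂ) (ρ : ℝ) (w : ℂ) : ℝ := deriv (kap ρ) (‖w - z‖ ^ 2) / Real.pi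

theorem nlap_M {ρ : ℝ} (hρ : 0 < ρ) (z w : ℂ) :
    nlap (fun w => Mf ρ (‖w - z‖ ^ 2)) w = -(2 * Real.pi) * ph z ρ w := by
  rw [nlap_comp (u := fun w : ℂ => ‖w - z‖ ^ 2) (sq_contDiff z).contDiffAt (Mf_hasDerivAt hρ)
    (Mp_hasDerivAt hρ), nlap_sq, norm_fderiv_sq]
  have h := Mp_id hρ (‖w - z‖ ^ 2)
  unfold ph
  have hpi : Real.pi ≠ 0 := Real.pi_ne_zero
  field_simp
  linarith

theorem ph_nonneg {ρ : ℝ} (hρ : 0 < ρ) (z w : ℂ) : 0 ≤ ph z ρ w :=
  div_nonneg (dkap_nonneg hρ _) Real.pi_pos.le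

theorem ph_contDiff (z : ℂ) (ρ : ℝ) : ContDiff ℝ ∞ (ph z ρ) :=
  (dkap_contDiff.comp (sq_contDiff z)).div_const _

theorem ph_zero {ρ : ℝ} (hρ : 0 < ρ) {z w : ℂ} (h : ρ < ‖w - z‖) : ph z ρ w = 0 := by
  unfold ph
  rw [dkap_zero hρ (by gcongr), zero_div]

theorem isTest_ph {ρ : ℝ} (hρ : 0 < ρ) {z : ℂ} {U : Set ℂ} (hU : closedBall z ρ ⊆ U) :
    IsTest U (ph z ρ) := by
  have hs : tsupport (ph z ρ) ⊆ closedBall z ρ := by
    refine closure_minimal (fun w hw => ?_) isClosed_closedBall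
    by_contra h
    rw [mem_closedBall, not_le, Complex.dist_eq] at h
    exact hw (ph_zero hρ h)
  refine ⟨ph_contDiff z ρ, ?_, hs.trans hU⟩
  exact (isCompact_closedBall z ρ).of_isClosed_subset (isClosed_tsupport _) hs

/-! ### harmonic functions -/

theorem nlap_harmonic {L : ℂ → ℝ} {z : ℂ} (hL : HarmonicAt L z) : nlap L z = 0 := by
  have h0 : Laplacian.laplacian L z = 0 := hL.2.self_of_nhds
  have h1 := congrFun (laplacian_eq_iteratedFDeriv_complexPlane L) z
  rw [h0] at h1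
  have hd : DifferentiableAt ℝ (fderiv ℝ L) z :=
    (hL.1.fderiv_right (m := 1) (by norm_num)).differentiableAt (by norm_num)
  have h2 : ∀ e : ℂ, fderiv ℝ (fun w => fderiv ℝ L w e) z e = iteratedFDeriv ℝ 2 L z ![e, e] := by
    intro e
    rw [iteratedFDeriv_two_apply, fderiv_clm_apply hd (differentiableAt_const e)]
    simp
  unfold nlap
  rw [h2, h2]
  linarith

theorem nlap_lin {L M : ℂ → ℝ} {z : ℂ} (hL : ContDiffAt ℝ 2 L z) (hM : ContDiffAt ℝ 2 M z)
    (c : ℝ) : nlap (fun w => c * (L w + M w)) z = c * (nlap L z + nlap M z) := by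
  have hd : ∀ {F : ℂ → ℝ}, ContDiffAt ℝ 2 F z → ∀ᶠ w in 𝓝 z, DifferentiableAt ℝ F w := by
    intro F hF
    filter_upwards [hF.eventually (by simp)] with w hw
    exact hw.differentiableAt (by norm_num)
  have hd2 : ∀ {F : ℂ → ℝ}, ContDiffAt ℝ 2 F z → ∀ e : ℂ,
      DifferentiableAt ℝ (fun w => fderiv ℝ F w e) z := by
    intro F hF e
    exact ((hF.fderiv_right (m := 1) (by norm_num)).differentiableAt (by norm_num)).clm_apply
      (differentiableAt_const e)
  have h1 : ∀ e : ℂ, fderiv ℝ (fun w => fderiv ℝ (fun w => c * (L w + M w)) w e) z e =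
      c * (fderiv ℝ (fun w => fderiv ℝ L w e) z e + fderiv ℝ (fun w => fderiv ℝ M w e) z e) := by
    intro e
    have e1 : (fun w => fderiv ℝ (fun w => c * (L w + M w)) w e) =ᶠ[𝓝 z]
        fun w => c * (fderiv ℝ L w e + fderiv ℝ M w e) := by
      filter_upwards [hd hL, hd hM] with w a1 a2
      rw [((a1.hasFDerivAt.fun_add a2.hasFDerivAt).const_mul c).fderiv]
      rfl
    rw [e1.fderiv_eq, (((hd2 hL e).hasFDerivAt.fun_add (hd2 hM e).hasFDerivAt).const_mul c).fderiv]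
    rfl
  unfold nlap
  rw [h1, h1]
  ring

/-! ### the mean value property -/

theorem circ_mean {r : ℝ} (hr : 0 ≤ r) {z : ℂ} {L : ℂ → ℝ}
    (hL : HarmonicOnNhd L (closedBall z r)) :
    ∫ θ in Ioo (-Real.pi) Real.pi, L (circleMap z r θ) = 2 * Real.pi * L z := by
  have h1 : Real.circleAverage L z r = L z := by
    apply InnerProductSpace.HarmonicOnNhd.circleAverage_eq
    rw [abs_of_nonneg hr]
    exact hL
  rw [Real.circleAverage_eq_integral_add (-Real.pi)] at h1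
  have h2 : ∫ θ in (0 : ℝ)..2 * Real.pi, L (circleMap z r (θ + -Real.pi)) =
      ∫ θ in Ioo (-Real.pi) Real.pi, L (circleMap z r θ) := by
    rw [intervalIntegral.integral_comp_add_right (fun θ => L (circleMap z r θ)),
      intervalIntegral.integral_of_le (by linarith [Real.pi_pos]), integral_Ioc_eq_integral_Ioo]
    congr 2
    · ring_nf
  rw [h2, smul_eq_mul] at h1
  rw [← h1]
  have : Real.pi ≠ 0 := Real.pi_ne_zero
  field_simp

theorem mean_ph {ρ : ℝ} (hρ : 0 < ρ) {z : ℂ} {L : ℂ → ℝ}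
    (hL : HarmonicOnNhd L (closedBall z ρ)) : ∫ w, ph z ρ w * L w = L z := by
  set F : ℂ → ℝ := fun w => ph z ρ w * L w with hF
  have hFc : Continuous F := by
    rw [continuous_iff_continuousAt]
    intro w
    by_cases hw : w ∈ closedBall z ρ
    · exact (ph_contDiff z ρ).continuous.continuousAt.mul (hL w hw).1.continuousAt
    · have h0 : F =ᶠ[𝓝 w] fun _ => 0 := by
        filter_upwards [isClosed_closedBall.isOpen_compl.mem_nhds hw] with x hx
        rw [mem_compl_iff, mem_closedBall, not_le, Complex.dist_eq] at hx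
        rw [hF]
        simp only
        rw [ph_zero hρ hx, zero_mul]
      exact continuousAt_const.congr h0.symm
  have hpc : ∀ p : ℝ × ℝ, z + Complex.polarCoord.symm p = circleMap z p.1 p.2 := by
    intro p
    rw [Complex.polarCoord_symm_apply, circleMap, Complex.exp_mul_I, Complex.ofReal_cos,
      Complex.ofReal_sin]
  set G : ℝ × ℝ → ℝ := fun p => p.1 • F (circleMap z p.1 p.2) with hG
  have hGc : Continuous G := by
    refine continuous_fst.smul (hFc.comp ?_)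
    unfold circleMap
    fun_prop
  have e1 : ∫ w, F w = ∫ p in polarCoord.target, G p := by
    rw [← integral_add_left_eq_self F z, ← Complex.integral_comp_polarCoord_symm]
    simp_rw [hpc]
    rfl
  have e2 : ∫ p in polarCoord.target, G p =
      ∫ p in Ioc 0 ρ ×ˢ Ioo (-Real.pi) Real.pi, G p := by
    apply setIntegral_eq_of_subset_of_forall_sdiff_eq_zero
    · exact polarCoord.open_target.measurableSet
    · rintro p ⟨h1, h2⟩
      exact ⟨h1.1, h2⟩
    · rintro p ⟨⟨h1, h2⟩, h3⟩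
      have h4 : ρ < p.1 := by
        by_contra h
        exact h3 ⟨⟨h1, not_lt.1 h⟩, h2⟩
      have h5 : ‖circleMap z p.1 p.2 - z‖ = p.1 := by
        rw [circleMap_sub_center, norm_circleMap_zero, abs_of_pos h1]
      show p.1 • (ph z ρ _ * L _) = 0
      rw [ph_zero hρ (by rw [h5]; exact h4), zero_mul, smul_zero]
  have hint : IntegrableOn G (Ioc 0 ρ ×ˢ Ioo (-Real.pi) Real.pi) (volume.prod volume) := by
    have h1 : IntegrableOn G (Icc 0 ρ ×ˢ Icc (-Real.pi) Real.pi) (volume.prod volume) :=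
      hGc.continuousOn.integrableOn_compact (isCompact_Icc.prod isCompact_Icc)
    exact h1.mono_set (prod_mono Ioc_subset_Icc_self Ioo_subset_Icc_self)
  have e3 : ∀ r ∈ Ioc 0 ρ, ∫ θ in Ioo (-Real.pi) Real.pi, G (r, θ) =
      2 * r * deriv (kap ρ) (r ^ 2) * L z := by
    rintro r ⟨hr0, hr⟩
    have h1 : ∀ θ, G (r, θ) = (r * (deriv (kap ρ) (r ^ 2) / Real.pi)) * L (circleMap z r θ) := by
      intro θ
      show r • (ph z ρ (circleMap z r θ) * L (circleMap z r θ)) = _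
      unfold ph
      rw [circleMap_sub_center, norm_circleMap_zero, abs_of_pos hr0, smul_eq_mul]
      ring
    simp_rw [h1]
    rw [integral_const_mul, circ_mean hr0.le (fun x hx => hL x (closedBall_subset_closedBall hr hx))]
    have : Real.pi ≠ 0 := Real.pi_ne_zero
    field_simp
  rw [e1, e2, Measure.volume_eq_prod, setIntegral_prod _ hint,
    setIntegral_congr_fun measurableSet_Ioc e3, ← intervalIntegral.integral_of_le hρ.le,
    intervalIntegral.integral_mul_const]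
  have h6 : ∀ r : ℝ, HasDerivAt (fun r => kap ρ (r ^ 2)) (2 * r * deriv (kap ρ) (r ^ 2)) r := by
    intro r
    have h7 := (kap_hasDerivAt ρ (r ^ 2)).comp r (hasDerivAt_pow 2 r)
    refine h7.congr_deriv ?_
    simp
    ring
  rw [intervalIntegral.integral_eq_sub_of_hasDerivAt (fun r _ => h6 r)
    (((continuous_const.mul continuous_id).mul
      (dkap_contDiff.continuous.comp (continuous_pow 2))).intervalIntegrable _ _),
    kap_one hρ le_rfl, kap_zero hρ (by rw [zero_pow two_ne_zero]; positivity)]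
  ring

/-- the bump has mass one -/
theorem mass_ph {ρ : ℝ} (hρ : 0 < ρ) (z : ℂ) : ∫ w, ph z ρ w = 1 := by
  have h := mean_ph hρ (z := z) (L := fun _ => (1 : ℝ)) (fun x _ => by
    refine ⟨contDiffAt_const, ?_⟩
    filter_upwards with w
    rw [laplacian_eq_iteratedFDeriv_complexPlane]
    simp [iteratedFDeriv_const_of_ne])
  simpa using h

end Vale.Agent.P155.Y877
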